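import Vale.Agent.P011Z.Cl.IniE.Rel
import Vale.Agent.P011Z.Cl.Brg

/-!
Classification of the forms: block IniE, extension of the maps over the number field.
-/

open Matrix Module

noncomputable section

namespace Vale.Agent.P011Z.Cl.IniEx

open Vale.Agent.P011.D4 Vale.Agent.P011.D4.Oct Vale.Agent.P011.E6 Vale.Agent.P011.E6.Alb

variable {F : Type} [Field F] [NumberField F] {ι : F →+* Om} {j : Js F → J} {H : Subgroup Gq}

/-- The properties of the standard chart. -/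
structure Std (ι : F →+* Om) (j : Js F → J) (H : Subgroup Gq) : Prop where
  opn : Opn H
  mem : ∀ σ, σ ∈ H ↔ ∀ t, σ (ι t) = ι t
  fx : ∀ y, Fx H y ↔ ∃ t, ι t = y
  ch : Chart ι j
  cb : ∀ x, cub (j x) = ι (P011.H900.cub 1 x)
  tr : ∀ x y, tf (j x) (j y) = ι (trf x y)
  ac : ∀ (σ : Gq) (r : F → F), (∀ t, σ (ι t) = ι (r t)) → ∀ x, aj σ (j x) = j (ajs r x)
  fv : ∀ y, (∀ σ ∈ H, aj σ y = y) ↔ ∃ x, j x = y
  ext : ∀ f : Equiv.Perm (Js F), P011.H900.Cub 1 f →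
    ∃ g : J ≃ₗ[Om] J, (∀ x, cub (g x) = cub x) ∧ ∀ x, g (j x) = j (f x)
  res : ∀ g : J ≃ₗ[Om] J, (∀ x, cub (g x) = cub x) → (∀ x, ∃ y, g (j x) = j y) →
    ∃ f : Equiv.Perm (Js F), P011.H900.Cub 1 f ∧ ∀ x, g (j x) = j (f x)

theorem exists_std (F : Type) [Field F] [NumberField F] :
    ∃ (ι : F →+* Om) (j : Js F → J) (H : Subgroup Gq), Std ι j H := by
  obtain ⟨ι⟩ := exists_emb F
  obtain ⟨H, o1, o2, o3⟩ := opn_emb ι
  obtain ⟨a, b, c, t1, t2, -, t4, t5⟩ := trp_std (ι := ι)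
  exact ⟨ι, ja ι a b c, H, o1, o2, o3, t1.chartA, t1.cub, t4, t5,
    (t1.fix (ha_oa o1) o3 (fun σ _ => (t2 σ).1) (fun σ _ => (t2 σ).2.1)
      fun σ _ => (t2 σ).2.2).2, t1.ext, t1.res⟩

theorem aj_j1 (σ : Gq) : aj σ j1 = j1 := by
  refine j_ext (fun i => ?_) fun i => ?_
  · rw [aj, al, dg_jm, j1, dg_jm]
    exact map_one σ
  · rw [aj, al, sl_jm, j1, sl_jm]
    exact (oa_semi σ).zero

theorem j1_ne : j1 ≠ 0 := fun h => by
  have h1 := Cubx.cub_j1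
  rw [h, ← zero_smul Om (0 : J), cub_smul, zero_pow three_ne_zero, zero_mul] at h1
  exact zero_ne_one h1

theorem semi_aj (σ : Gq) : Semi σ (aj σ) := (ta_aj opn_top).semi σ trivial

omit [NumberField F] in
theorem Std.fix (h : Std ι j H) {σ : Gq} (hσ : σ ∈ H) (x : Js F) : aj σ (j x) = j x :=
  (h.fv _).2 ⟨x, rfl⟩ σ hσ

theorem Std.sim (h : Std ι j H) {σ : Gq} {r : F → F} (hσ : ∀ t, σ (ι t) = ι (r t))
    {φ : Js F → Js F} (hφ : Sml r φ) : ∃ T, Sim σ T ∧ ∀ x, T (j x) = j (φ x) := by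
  obtain ⟨h1, h2, l, hl⟩ := hφ
  obtain ⟨T, hT, e⟩ := h.ch.ext_semi h.ch hσ h1 h2
  have hp : Pol fun y : J => cub y := Pol.cub (PolM.lin LinearMap.id)
  have hc : ∀ x, cub (T x) = ι l * σ (cub x) := fun x => by
    have h3 := h.ch.pol ((hp.semi hT).sub ((Pol.const (σ⁻¹ (ι l))).mul hp)) (fun y => by
      rw [e, h.cb, hl, map_mul, ← hσ, h.cb, map_mul, Cubx.inv_ap, sub_self]) x
    have h4 := congrArg σ (sub_eq_zero.1 h3)
    rwa [map_mul, Cubx.ap_inv, Cubx.ap_inv] at h4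
  refine ⟨T, ⟨hT, ι l, fun h0 => ?_, hc⟩, e⟩
  obtain ⟨x, hx⟩ := hT.bij.2 j1
  have h3 := hc x
  rw [hx, h0, zero_mul, Cubx.cub_j1] at h3
  exact one_ne_zero h3

variable {P : (Js F → Js F) → Prop} {X : P011.H900.grp P → J ≃ₗ[Om] J}

theorem Std.inn (h : Std ι j H) (hX : ∀ g x, X g (j x) = j (g.1 x)) {σ : Gq} {T : J → J}
    (hT : Semi σ T) {φ : Js F → Js F} (e : ∀ x, T (j x) = j (φ x))
    {α : MulAut (P011.H900.grp P)} (hφ : Inn φ α) : In X α T := fun g y => by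
  have h1 := hT.comp (semi_lin (X g))
  have h2 := (semi_lin (X (α g))).comp hT
  rw [mul_one] at h1
  rw [one_mul] at h2
  exact h.ch.eq_semi h1 h2 (fun x => by rw [hX, e, e, hX, hφ]) y

theorem Std.dua (h : Std ι j H) (hX : ∀ g x, X g (j x) = j (g.1 x)) {σ : Gq} {T : J → J}
    (hT : Semi σ T) {φ : Js F → Js F} (e : ∀ x, T (j x) = j (φ x))
    {α : MulAut (P011.H900.grp P)} (hφ : Dua φ α) : Du X α T := fun g y => by
  have h1 := hT.comp (semi_lin (X g))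
  have h2 := (semi_lin (X (α g))).dag.comp hT
  rw [mul_one] at h1
  rw [one_mul] at h2
  refine h.ch.eq_semi h1 h2 (fun y => (dag_eq (semi_lin _) fun x => ?_).symm) y
  refine Extx.eq0 h.ch (σ := id) (f := fun x => tf (X (α g) x) (T (X g (j y))))
    (g := fun x => tf x (T (j y))) (fun a b => by rw [map_add, tf_add_left])
    (fun t a => by rw [map_smul, tf_smul_left]; rfl) (fun a b => tf_add_left a b _)
    (fun t a => tf_smul_left t a _) (fun x => ?_) x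
  rw [hX, hX, e, e, h.tr, h.tr, hφ]

/-- The group over the number field as a group of linear automorphisms. -/
theorem Std.grp (h : Std ι j H) :
    ∃ X : P011.H900.grp (P011.H900.Cub (a := (1 : F)) (b := 1) 1) →* (J ≃ₗ[Om] J),
      Function.Injective X ∧ (∀ g x, X g (j x) = j (g.1 x)) ∧ (∀ g x, cub (X g x) = cub x) ∧
      ∀ g : J ≃ₗ[Om] J, (∀ x, cub (g x) = cub x) → (∀ σ ∈ H, ∀ x, g (aj σ x) = aj σ (g x)) →
        ∃ a, X a = g := by
  obtain ⟨-, e, he⟩ := xfer (P011.H900.Cub (a := (1 : F)) (b := 1) 1) (ED.mk H H aj).grp j h.ch.inj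
    (fun f hf => by
      obtain ⟨g, g1, g2⟩ := h.ext f hf
      refine ⟨g, ⟨g1, fun σ hσ x => ?_, fun σ hσ hn => absurd hσ hn⟩, g2⟩
      have h1 := (semi_aj σ).comp (semi_lin g)
      have h2 := (semi_lin g).comp (semi_aj σ)
      rw [mul_one] at h1
      rw [one_mul] at h2
      exact h.ch.eq_semi h2 h1 (fun y => by rw [h.fix hσ, g2, h.fix hσ]) x)
    (fun g hg => h.res g hg.1 fun x => ((h.fv _).1 fun σ hσ =>
      (hg.2.1 σ hσ _).symm.trans (congrArg g (h.fix hσ x))).imp fun _ hy => hy.symm)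
    fun g _ hg => LinearEquiv.ext (h.ch.eq_semi (semi_lin g) (semi_lin 1) hg)
  refine ⟨(Subgroup.subtype _).comp e.toMonoidHom, Subtype.val_injective.comp e.injective, he,
    fun g => (e g).2.1, fun g h1 h2 => ?_⟩
  obtain ⟨a, ha⟩ := e.surjective ⟨g, h1, h2, fun σ hσ hn => absurd hσ hn⟩
  exact ⟨a, congrArg Subtype.val ha⟩

/-- A splitting over the algebraic numbers gives a splitting over the number field. -/
theorem Std.spl (h : Std ι j H) {ψ : J ≃ₗ[Om] J} (hψ : Sim 1 ψ)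
    (h1 : ∀ σ ∈ H, ∃ t : Om, ∀ x, aj σ (ψ x) = t • ψ (aj σ x)) :
    ∃ φ, Sml id φ ∧ ∀ (σ : Gq) (r : F → F) (f : Js F → Js F) (T : J → J) (t : Om),
      (∀ t, σ (ι t) = ι (r t)) → Semi σ T → (∀ x, T (j x) = j (f x)) →
      (∀ x, T (ψ x) = t • ψ (aj σ x)) → ∃ u : F, ∀ x, f (φ x) = u • φ (ajs r x) := by
  have n1 : ψ j1 ≠ 0 := (semi_lin ψ).ne j1_ne
  obtain ⟨u, hu0, hu⟩ := (ta_aj h.opn).line (x := ψ j1) ⟨n1, fun σ hσ =>
    (h1 σ hσ).imp fun t ht => by rw [ht, aj_j1]⟩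
  have h2 := hψ.smul' hu0
  obtain ⟨ψ', e⟩ := h2.toSemi.lin
  have h3 : ∀ σ ∈ H, ∀ x, aj σ (ψ' x) = ψ' (aj σ x) := fun σ hσ x => by
    obtain ⟨t, ht⟩ := h1 σ hσ
    have h4 := hu σ hσ
    rw [(semi_aj σ).smul, ht, aj_j1, smul_smul] at h4
    rw [e, e, (semi_aj σ).smul, ht, smul_smul, smul_left_injective Om n1 h4]
  obtain ⟨Y, -, y1, y2, -⟩ := h.ch.ext
  obtain ⟨g, hg⟩ := y2 ψ' fun x => ((h.fv _).1 fun σ hσ => by
    rw [h3 σ hσ, h.fix hσ]).imp fun _ hy => hy.symm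
  have h4 : ∀ x, ψ' (j x) = j (g x) := fun x => by rw [← hg, y1]
  obtain ⟨x0, hx0⟩ := (h.fv j1).1 fun σ _ => aj_j1 σ
  obtain ⟨l, -, hl⟩ := h2.mult
  refine ⟨g, ⟨g.bijective, fun t x y => by rw [map_add, map_smul]; rfl, P011.H900.cub 1 (g x0),
    fun x => ι.injective ?_⟩, fun σ r f T t hσ hT h5 h6 => ?_⟩
  · rw [map_mul, ← h.cb, ← h.cb, ← h4, ← h4, e, e, hl, hl, hx0, Cubx.cub_j1, map_one, mul_one]
    exact congrArg _ (h.cb x)
  · have h7 : ∀ x, j (f (g x)) = (σ u * t * u⁻¹) • j (g (ajs r x)) := fun x => by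
      rw [← h5, ← h4, ← h4, ← h.ac σ r hσ, e, e, hT.smul, h6, smul_smul, smul_smul,
        inv_mul_cancel_right₀ hu0]
    generalize σ u * t * u⁻¹ = s at h7
    obtain ⟨v, rfl⟩ := (h.fx s).1 fun τ hτ => by
      have h8 := congrArg (aj τ) (h7 x0)
      rw [(semi_aj τ).smul, h.fix hτ, h.fix hτ, h7, ← h4, ← h.ac σ r hσ, hx0, aj_j1] at h8
      exact (smul_left_injective Om ((semi_lin ψ').ne j1_ne) h8).symm
    exact ⟨v, fun x => h.ch.inj (by rw [h7, h.ch.smul])⟩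

theorem uni (h : Chart ι j) {g : J ≃ₗ[Om] J} {f : Js F → Js F} (e : ∀ x, g (j x) = j (f x))
    (hg : ∃ m : ℕ, ∀ x, (fun y => g y - y)^[m] x = 0) :
    ∃ m : ℕ, ∀ x, (fun y => f y - y)^[m] x = 0 := by
  have h1 : ∀ m x, (fun y => g y - y)^[m] (j x) = j ((fun y => f y - y)^[m] x) := by
    intro m
    induction m with
    | zero => exact fun _ => rfl
    | succ m ih =>
      intro x
      rw [Function.iterate_succ_apply, Function.iterate_succ_apply, ← ih, e]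
      exact congrArg _ (map_sub (Extx.sm h) _ _).symm
  refine hg.imp fun m hm x => h.inj ?_
  rw [← h1, hm]
  exact (Extx.sm h).map_zero.symm

theorem Std.uni (h : Std ι j H) {g : J ≃ₗ[Om] J} {f : Js F → Js F} (e : ∀ x, g (j x) = j (f x))
    (hg : ∃ m : ℕ, ∀ x, (fun y => g y - y)^[m] x = 0) :
    ∃ m : ℕ, ∀ x, (fun y => f y - y)^[m] x = 0 := IniEx.uni h.ch e hg

end Vale.Agent.P011Z.Cl.IniEx

end
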