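import Vale.Agent.P011Z.Cl.Dat
import Vale.Agent.P011Z.Cl.Com

/-!
Classification of the forms: block IniE, maps which induce a given automorphism.
-/

open Matrix Module

noncomputable section

namespace Vale.Agent.P011Z.Cl.IniEx

open Vale.Agent.P011.D4 Vale.Agent.P011.D4.Oct Vale.Agent.P011.E6 Vale.Agent.P011.E6.Alb

variable {Λ : Type} {X : Λ → J ≃ₗ[Om] J} {α β : Λ → Λ} {σ : Gq} {T T' : J → J}

/-- The map `T` induces `α` by conjugation. -/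
def In (X : Λ → J ≃ₗ[Om] J) (α : Λ → Λ) (T : J → J) : Prop :=
  ∀ g y, T (X g y) = X (α g) (T y)

/-- The map `T` induces `α` by conjugation followed by the inverse of the adjoint. -/
def Du (X : Λ → J ≃ₗ[Om] J) (α : Λ → Λ) (T : J → J) : Prop :=
  ∀ g y, T (X g y) = dag 1 (X (α g)) (T y)

theorem du_iff : Du X α T ↔ ∀ g x y, tf (X (α g) x) (T (X g y)) = tf x (T y) :=
  ⟨fun h g x y => by rw [h, dag_tf (semi_lin _), AlgEquiv.one_apply],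
    fun h g y => (dag_eq (semi_lin _) fun x => h g x y).symm⟩

theorem uniq (hX : ∀ g, RatE g → ∃ a, X a = g) {A : Λ → J → J} (hT : Semi σ T) (hT' : Semi σ T')
    (h : ∀ g y, T (X g y) = A g (T y)) (h' : ∀ g y, T' (X g y) = A g (T' y)) :
    ∃ c : Om, ∀ x, T' x = c • T x := by
  obtain ⟨S, s1, -, s3⟩ := hT.inv
  have h1 := s1.comp hT'
  rw [inv_mul_cancel] at h1
  obtain ⟨U, hU⟩ := h1.lin
  obtain ⟨c, hc⟩ := com_E U.toLinearMap fun g hg x => by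
    obtain ⟨a, rfl⟩ := hX g hg
    refine hT.bij.1 ?_
    change T (U _) = T (X a (U x))
    rw [h, hU, hU, s3, s3, h']
  refine ⟨σ c, fun x => ?_⟩
  rw [← hT.smul, ← hc]
  exact ((congrArg T (hU x)).trans (s3 _)).symm

theorem not_both (hX : ∀ g, RatE g → ∃ a, X a = g) (hT : Semi σ T) (hT' : Semi σ T')
    (h : In X α T) (h' : Du X α T') : False := by
  obtain ⟨B, hB⟩ : ∃ B : J →ₗ[Om] J →ₗ[Om] Om, ∀ x y, B x y = σ⁻¹ (tf (T x) (T' y)) :=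
    ⟨LinearMap.mk₂ Om (fun x y => σ⁻¹ (tf (T x) (T' y)))
      (fun x x' y => by rw [hT.add, tf_add_left, map_add])
      (fun t x y => by rw [hT.smul, tf_smul_left, map_mul, Cubx.inv_ap, smul_eq_mul])
      (fun x y y' => by rw [hT'.add, tf_add_right, map_add])
      (fun t x y => by rw [hT'.smul, tf_smul_right, map_mul, Cubx.inv_ap, smul_eq_mul]),
      fun _ _ => rfl⟩
  have h0 := no_inv B fun g hg x y => by
    obtain ⟨a, rfl⟩ := hX g hg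
    rw [hB, hB, h, du_iff.1 h']
  refine hT.ne (Prcx.ee_ne 0) (eq_of_tf fun w => ?_)
  obtain ⟨y, rfl⟩ := hT'.bij.2 w
  have h1 := hB (ee 0) y
  rw [h0] at h1
  rw [tf_zero_left]
  exact (map_eq_zero σ⁻¹).1 h1.symm

theorem In.comp (h : In X α T) (h' : In X β T') : In X (α ∘ β) fun x => T (T' x) :=
  fun g y => (congrArg T (h' g y)).trans (h _ _)

theorem Du.comp (h : Du X α T) (h' : In X β T') : Du X (α ∘ β) fun x => T (T' x) :=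
  fun g y => (congrArg T (h' g y)).trans (h _ _)

theorem In.dag (hT : Semi σ T) (h : In X α T) (h' : Du X β T') :
    Du X (α ∘ β) fun x => dag σ T (T' x) := fun g y => by
  refine (congrArg (Cl.dag σ T) (h' g y)).trans (dag_eq hT fun x => ?_)
  obtain ⟨x, rfl⟩ := (X (β g)).surjective x
  rw [h, Function.comp_apply, dag_tf (semi_lin _), dag_tf (semi_lin _), AlgEquiv.one_apply,
    AlgEquiv.one_apply, dag_tf hT]

theorem Du.dag (hT : Semi σ T) (h : Du X α T) (h' : Du X β T') :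
    In X (α ∘ β) fun x => dag σ T (T' x) := fun g y => by
  refine (congrArg (Cl.dag σ T) (h' g y)).trans (dag_eq hT fun x => ?_)
  obtain ⟨x, rfl⟩ := (X (β g)).surjective x
  rw [dag_tf (semi_lin _), AlgEquiv.one_apply, tf_comm, Function.comp_apply, du_iff.1 h, tf_comm,
    dag_tf hT]

/-- The datum. -/
theorem exists_ed (hX : ∀ g, RatE g → ∃ a, X a = g) {G H : Subgroup Gq} (hH : Opn H) (hle : H ≤ G)
    {α : Gq → Λ → Λ} (hα : ∀ σ ∈ G, ∀ τ ∈ G, α (σ * τ) = α σ ∘ α τ) {f : Gq → J → J}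
    (hf : ∀ σ ∈ G, Sim σ (f σ)) (hr : ∀ σ ∈ G, In X (α σ) (f σ) ∨ Du X (α σ) (f σ))
    (h1 : ∀ σ ∈ H, In X (α σ) (f σ)) (h2 : ∀ σ ∈ H, ∀ x, f σ x = aj σ x) :
    ∃ K : Subgroup Gq, (ED.mk G K f).OK ∧ ∀ σ, σ ∈ K ↔ σ ∈ G ∧ In X (α σ) (f σ) := by
  have hs := fun σ hσ => (hf σ hσ).toSemi
  have k1 : ∀ σ ∈ G, ∀ T, Semi σ T → In X (α σ) T → In X (α σ) (f σ) := fun σ hσ T hT h =>
    (hr σ hσ).resolve_right (not_both hX hT (hs σ hσ) h)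
  have k2 : ∀ σ ∈ G, ∀ T, Semi σ T → Du X (α σ) T → ¬ In X (α σ) (f σ) := fun σ hσ T hT h h' =>
    not_both hX (hs σ hσ) hT h' h
  obtain ⟨K, hK⟩ : ∃ K : Subgroup Gq, ∀ σ, σ ∈ K ↔ σ ∈ G ∧ In X (α σ) (f σ) := by
    refine ⟨⟨⟨⟨{σ | σ ∈ G ∧ In X (α σ) (f σ)}, ?_⟩, one_mem G, h1 1 (one_mem H)⟩, ?_⟩,
      fun _ => Iff.rfl⟩
    · rintro σ τ ⟨a1, a2⟩ ⟨b1, b2⟩
      exact ⟨mul_mem a1 b1, k1 _ (mul_mem a1 b1) _ ((hs σ a1).comp (hs τ b1))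
        (hα σ a1 τ b1 ▸ a2.comp b2)⟩
    · rintro σ ⟨a1, a2⟩
      refine ⟨inv_mem a1, (hr _ (inv_mem a1)).resolve_right fun a3 => ?_⟩
      have a4 := k2 _ (mul_mem (inv_mem a1) a1) _ ((hs _ (inv_mem a1)).comp (hs σ a1))
        (hα _ (inv_mem a1) σ a1 ▸ a3.comp a2)
      rw [inv_mul_cancel] at a4
      exact a4 (h1 1 (one_mem H))
  have d1 : ∀ σ ∈ G, σ ∉ K → Du X (α σ) (f σ) := fun σ hσ h =>
    (hr σ hσ).resolve_left fun h' => h ((hK σ).2 ⟨hσ, h'⟩)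
  have p1 : ∀ σ ∈ G, ∀ τ ∈ K, σ ∉ K → Du X (α (σ * τ)) fun x => f σ (f τ x) :=
    fun σ hσ τ hτ h => hα σ hσ τ ((hK τ).1 hτ).1 ▸ (d1 σ hσ h).comp ((hK τ).1 hτ).2
  have p2 : ∀ σ ∈ K, ∀ τ ∈ G, τ ∉ K → Du X (α (σ * τ)) fun x => dag σ (f σ) (f τ x) :=
    fun σ hσ τ hτ h => hα σ ((hK σ).1 hσ).1 τ hτ ▸
      In.dag (hs σ ((hK σ).1 hσ).1) ((hK σ).1 hσ).2 (d1 τ hτ h)
  have p3 : ∀ σ ∈ G, ∀ τ ∈ G, σ ∉ K → τ ∉ K → In X (α (σ * τ)) fun x => dag σ (f σ) (f τ x) :=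
    fun σ hσ τ hτ h h' => hα σ hσ τ hτ ▸ Du.dag (hs σ hσ) (d1 σ hσ h) (d1 τ hτ h')
  have n1 : ∀ σ ∈ G, ∀ τ ∈ K, σ ∉ K → σ * τ ∉ K := fun σ _ τ hτ h h' =>
    h ((mul_mem_cancel_right hτ).1 h')
  have n2 : ∀ σ ∈ K, ∀ τ ∈ G, τ ∉ K → σ * τ ∉ K := fun σ hσ τ _ h h' =>
    h ((mul_mem_cancel_left hσ).1 h')
  have n3 : ∀ σ ∈ G, ∀ τ ∈ G, σ ∉ K → τ ∉ K → σ * τ ∈ K := fun σ hσ τ hτ h h' =>
    (hK _).2 ⟨mul_mem hσ hτ, k1 _ (mul_mem hσ hτ) _ ((hs σ hσ).dag.comp (hs τ hτ))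
      (p3 σ hσ τ hτ h h')⟩
  have hHK : H ≤ K := fun σ hσ => (hK σ).2 ⟨hle hσ, h1 σ hσ⟩
  refine ⟨K, ⟨hH.mono hHK, fun σ hσ => ((hK σ).1 hσ).1, fun σ hσ τ hτ => ?_, hf,
    fun σ hσ τ hτ => ?_, fun σ hσ τ hτ h => ?_, fun x => ?_⟩, hK⟩
  · by_cases a : σ ∈ K <;> by_cases b : τ ∈ K
    · exact iff_of_true (mul_mem a b) (iff_of_true a b)
    · exact iff_of_false (n2 σ a τ hτ b) fun h => b (h.1 a)
    · exact iff_of_false (n1 σ hσ τ b a) fun h => a (h.2 b)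
    · exact iff_of_true (n3 σ hσ τ hτ a b) (iff_of_false a b)
  · have b := (hK τ).1 hτ
    by_cases a : σ ∈ K
    · exact uniq hX (hs _ (mul_mem hσ b.1)) ((hs σ hσ).comp (hs τ b.1))
        ((hK _).1 (mul_mem a hτ)).2 (hα σ hσ τ b.1 ▸ ((hK σ).1 a).2.comp b.2)
    · exact uniq hX (hs _ (mul_mem hσ b.1)) ((hs σ hσ).comp (hs τ b.1))
        (d1 _ (mul_mem hσ b.1) (n1 σ hσ τ hτ a)) (p1 σ hσ τ hτ a)
  · by_cases a : σ ∈ K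
    · exact uniq hX (hs _ (mul_mem hσ hτ)) ((hs σ hσ).dag.comp (hs τ hτ))
        (d1 _ (mul_mem hσ hτ) (n2 σ a τ hτ h)) (p2 σ a τ hτ h)
    · exact uniq hX (hs _ (mul_mem hσ hτ)) ((hs σ hσ).dag.comp (hs τ hτ))
        ((hK _).1 (n3 σ hσ τ hτ a h)).2 (p3 σ hσ τ hτ a h)
  · obtain ⟨N, a1, a2⟩ := (ta_aj hH).smo x
    exact ⟨N ⊓ H, a1.inf hH, fun σ hσ _ => (h2 σ hσ.2 x).trans (a2 σ hσ.1 hσ.2)⟩

end Vale.Agent.P011Z.Cl.IniEx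

end
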